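import Mathlib.GroupTheory.Solvable
import Mathlib.Algebra.Group.End
import Mathlib.Algebra.Group.Int.TypeTags
import Mathlib.Tactic.Ring
import Mathlib.Tactic.Group
import Mathlib.Tactic.Linarith
import Mathlib.Data.Int.Order.Basic
import Mathlib.Data.Set.Finite.Basic

/-! # P246, disproof of D(2): the locally solvable quotient

`K` is a solvable group with an involutive automorphism `β` and an element `z ≠ 1` of order two
fixed by `β`.  The group `K` acts on `ℤ → K` (at level `i`), for all `i : ℤ`, in such a way that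
the element `z` of level `i - 1` acts on the copy of `K` of level `i` through `β`. -/

namespace Vale.Agent.P246.Dis.H654

/-- A group `K` with an involutive automorphism `β` and an element `z` of order two fixed by it. -/
structure Dat (K : Type) [Group K] where
  β : K ≃* K
  z : K
  ββ : ∀ x, β (β x) = x
  βz : β z = z
  zz : z * z = 1
  z1 : z ≠ 1

variable {K : Type} [Group K] (D : Dat K)

/-- the configuration is trivial below `i` -/
def Base (i : ℤ) (w : ℤ → K) : Prop := ∀ k < i, w k = 1

/-- the configuration is trivial below `i - 1` and is `z` at `i - 1` -/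
def ZBase (i : ℤ) (w : ℤ → K) : Prop := Base (i - 1) w ∧ w (i - 1) = D.z

theorem base_congr {i : ℤ} {w w' : ℤ → K} (h : ∀ k < i, w k = w' k) : Base i w ↔ Base i w' := by
  constructor
  · intro hb k hk; rw [← h k hk]; exact hb k hk
  · intro hb k hk; rw [h k hk]; exact hb k hk

theorem zbase_congr {i : ℤ} {w w' : ℤ → K} (h : ∀ k < i, w k = w' k) :
    ZBase D i w ↔ ZBase D i w' := by
  unfold ZBase
  rw [base_congr (w := w) (w' := w') (fun k hk => h k (by omega)), h (i - 1) (by omega)]

open Classical in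
/-- the multiplier -/
noncomputable def mu (i : ℤ) (x : K) (w : ℤ → K) : K :=
  if Base i w then x else if ZBase D i w then D.β x else 1

theorem mu_congr {i : ℤ} (x : K) {w w' : ℤ → K} (h : ∀ k < i, w k = w' k) :
    mu D i x w = mu D i x w' := by
  have h1 := base_congr h
  have h2 := zbase_congr D h
  unfold mu
  by_cases c1 : Base i w'
  · rw [if_pos (h1.2 c1), if_pos c1]
  · rw [if_neg (fun c => c1 (h1.1 c)), if_neg c1]
    by_cases c2 : ZBase D i w'
    · rw [if_pos (h2.2 c2), if_pos c2]
    · rw [if_neg (fun c => c2 (h2.1 c)), if_neg c2]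

theorem mu_mul (i : ℤ) (x y : K) (w : ℤ → K) : mu D i (x * y) w = mu D i x w * mu D i y w := by
  unfold mu
  split_ifs
  · rfl
  · exact map_mul D.β x y
  · exact (one_mul 1).symm

theorem mu_one (i : ℤ) (w : ℤ → K) : mu D i 1 w = 1 := by
  unfold mu
  split_ifs
  · rfl
  · exact map_one D.β
  · rfl

/-- the action of `x ∈ K` at level `i` -/
noncomputable def actFun (i : ℤ) (x : K) (w : ℤ → K) : ℤ → K :=
  Function.update w i (mu D i x w * w i)

theorem actFun_self (i : ℤ) (x : K) (w : ℤ → K) : actFun D i x w i = mu D i x w * w i := by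
  simp [actFun]

theorem actFun_ne {i k : ℤ} (h : k ≠ i) (x : K) (w : ℤ → K) : actFun D i x w k = w k := by
  simp [actFun, h]

theorem actFun_mul (i : ℤ) (x y : K) (w : ℤ → K) :
    actFun D i (x * y) w = actFun D i x (actFun D i y w) := by
  funext k
  by_cases hk : k = i
  · subst hk
    rw [actFun_self, actFun_self, actFun_self, mu_mul, mul_assoc,
      mu_congr D x (w := actFun D k y w) (w' := w) (fun l hl => actFun_ne D (by omega) y w)]
  · rw [actFun_ne D hk, actFun_ne D hk, actFun_ne D hk]

theorem actFun_one (i : ℤ) (w : ℤ → K) : actFun D i 1 w = w := by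
  funext k
  by_cases hk : k = i
  · subst hk
    rw [actFun_self, mu_one, one_mul]
  · rw [actFun_ne D hk]

/-- the action of `K` at level `i` -/
noncomputable def act (i : ℤ) : K →* Equiv.Perm (ℤ → K) where
  toFun x :=
    { toFun := actFun D i x
      invFun := actFun D i x⁻¹
      left_inv := fun w => by rw [← actFun_mul, inv_mul_cancel, actFun_one]
      right_inv := fun w => by rw [← actFun_mul, mul_inv_cancel, actFun_one] }
  map_one' := by
    ext1 w
    exact actFun_one D i w
  map_mul' x y := by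
    ext1 w
    exact actFun_mul D i x y w

@[simp] theorem act_apply (i : ℤ) (x : K) (w : ℤ → K) : act D i x w = actFun D i x w := rfl

theorem mu_zfix (i : ℤ) (w : ℤ → K) :
    mu D i D.z w = 1 ∨ mu D i D.z w = D.z := by
  unfold mu
  split_ifs
  · right; rfl
  · right; exact D.βz
  · left; rfl

theorem mu_zsq (i : ℤ) (w : ℤ → K) : mu D i D.z w * mu D i D.z w = 1 := by
  rcases mu_zfix D i w with h | h
  · rw [h, one_mul]
  · rw [h, D.zz]

/-- the main computation: conjugation by `z` of level `i - 1` is `β` on level `i`. -/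
theorem mu_conj (i : ℤ) (x : K) (w : ℤ → K) :
    mu D i x (actFun D (i - 1) D.z w) = mu D i (D.β x) w := by
  by_cases hb : Base (i - 1) w
  · have hm : mu D (i - 1) D.z w = D.z := by
      unfold mu; rw [if_pos hb]
    have hu : actFun D (i - 1) D.z w (i - 1) = D.z * w (i - 1) := by
      rw [actFun_self, hm]
    have hub : Base (i - 1) (actFun D (i - 1) D.z w) := by
      intro k hk
      rw [actFun_ne D (by omega)]
      exact hb k hk
    have h1 : Base i w ↔ w (i - 1) = 1 := by
      constructor
      · intro h; exact h _ (by omega)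
      · intro h k hk
        rcases eq_or_lt_of_le (show k ≤ i - 1 by omega) with h' | h'
        · rw [h']; exact h
        · exact hb k h'
    have h2 : Base i (actFun D (i - 1) D.z w) ↔ D.z * w (i - 1) = 1 := by
      rw [← hu]
      constructor
      · intro h; exact h _ (by omega)
      · intro h k hk
        rcases eq_or_lt_of_le (show k ≤ i - 1 by omega) with h' | h'
        · rw [h']; exact h
        · exact hub k h'
    have h3 : ZBase D i w ↔ w (i - 1) = D.z := by
      unfold ZBase; exact and_iff_right hb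
    have h4 : ZBase D i (actFun D (i - 1) D.z w) ↔ D.z * w (i - 1) = D.z := by
      unfold ZBase; rw [hu]; exact and_iff_right hub
    have h2' : Base i (actFun D (i - 1) D.z w) ↔ w (i - 1) = D.z := by
      rw [h2]
      constructor
      · intro h
        have : D.z * (D.z * w (i - 1)) = D.z * 1 := by rw [h]
        rwa [← mul_assoc, D.zz, one_mul, mul_one] at this
      · intro h; rw [h, D.zz]
    have h4' : ZBase D i (actFun D (i - 1) D.z w) ↔ w (i - 1) = 1 := by
      rw [h4]; exact mul_eq_left
    unfold mu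
    have hne := D.z1
    by_cases c1 : w (i - 1) = 1
    · rw [if_neg (fun h => hne ((h2'.1 h).symm.trans c1)), if_pos (h4'.2 c1), if_pos (h1.2 c1)]
    · by_cases c2 : w (i - 1) = D.z
      · rw [if_pos (h2'.2 c2), if_neg (fun h => c1 (h1.1 h)), if_pos (h3.2 c2), D.ββ]
      · rw [if_neg (fun h => c2 (h2'.1 h)), if_neg (fun h => c1 (h4'.1 h)),
          if_neg (fun h => c1 (h1.1 h)), if_neg (fun h => c2 (h3.1 h))]
  · have hub : ¬ Base (i - 1) (actFun D (i - 1) D.z w) := by
      rw [base_congr (w := actFun D (i - 1) D.z w) (w' := w)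
        (fun k hk => actFun_ne D (by omega) _ w)]
      exact hb
    have h0 : ∀ u : ℤ → K, ¬ Base (i - 1) u → ¬ Base i u ∧ ¬ ZBase D i u := by
      intro u hu
      refine ⟨fun h => hu fun k hk => h k (by omega), fun h => hu h.1⟩
    unfold mu
    rw [if_neg (h0 _ hub).1, if_neg (h0 _ hub).2, if_neg (h0 _ hb).1, if_neg (h0 _ hb).2]

theorem act_conj (i : ℤ) (x : K) :
    act D (i - 1) D.z * act D i x * act D (i - 1) D.z = act D i (D.β x) := by
  ext1 w
  change actFun D (i - 1) D.z (actFun D i x (actFun D (i - 1) D.z w)) = actFun D i (D.β x) w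
  funext k
  by_cases h1 : k = i - 1
  · subst h1
    rw [actFun_self, actFun_ne D (show i - 1 ≠ i by omega), actFun_self,
      actFun_ne D (show i - 1 ≠ i by omega)]
    have : mu D (i - 1) D.z (actFun D i x (actFun D (i - 1) D.z w)) = mu D (i - 1) D.z w := by
      apply mu_congr
      intro l hl
      rw [actFun_ne D (by omega), actFun_ne D (by omega)]
    rw [this, ← mul_assoc, mu_zsq, one_mul]
  · rw [actFun_ne D h1]
    by_cases h2 : k = i
    · subst h2
      rw [actFun_self, actFun_self, mu_conj, actFun_ne D (show k ≠ k - 1 by omega)]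
    · rw [actFun_ne D h2, actFun_ne D h1, actFun_ne D h2]

/-- the shift -/
def shift (K : Type) : Equiv.Perm (ℤ → K) where
  toFun w k := w (k - 1)
  invFun w k := w (k + 1)
  left_inv w := by funext k; simp
  right_inv w := by funext k; simp

theorem shift_conj (i : ℤ) (x : K) :
    shift K * act D i x * (shift K)⁻¹ = act D (i + 1) x := by
  ext1 w
  change (fun k => actFun D i x (fun l => w (l + 1)) (k - 1)) = actFun D (i + 1) x w
  have hb : ∀ j, Base j (fun l => w (l + 1)) ↔ Base (j + 1) w := by
    intro j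
    constructor
    · intro h k hk
      have := h (k - 1) (by omega)
      simpa using this
    · intro h k hk
      exact h (k + 1) (by omega)
  have hz : ZBase D i (fun l => w (l + 1)) ↔ ZBase D (i + 1) w := by
    unfold ZBase
    rw [hb]
    simp
  have hm : mu D i x (fun l => w (l + 1)) = mu D (i + 1) x w := by
    have hb' := hb i
    unfold mu
    by_cases c1 : Base (i + 1) w
    · rw [if_pos (hb'.2 c1), if_pos c1]
    · rw [if_neg (fun c => c1 (hb'.1 c)), if_neg c1]
      by_cases c2 : ZBase D (i + 1) w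
      · rw [if_pos (hz.2 c2), if_pos c2]
      · rw [if_neg (fun c => c2 (hz.1 c)), if_neg c2]
  funext k
  by_cases hk : k = i + 1
  · subst hk
    rw [actFun_self]
    simp only [add_sub_cancel_right]
    rw [actFun_self, hm]
  · rw [actFun_ne D hk, actFun_ne D (show k - 1 ≠ i by omega)]
    simp

/-- the element `b` -/
noncomputable def bP : Equiv.Perm (ℤ → K) := act D (-1) D.z

theorem bP_sq : bP D * bP D = 1 := by
  unfold bP
  rw [← map_mul, D.zz, map_one]

theorem bP_conj (x : K) : bP D * act D 0 x * bP D = act D 0 (D.β x) := by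
  have := act_conj D 0 x
  simpa [bP] using this

theorem shift_bP : shift K * bP D * (shift K)⁻¹ = act D 0 D.z := by
  have := shift_conj D (-1) D.z
  simpa [bP] using this

theorem bP_ne_one : bP D ≠ 1 := by
  intro h
  have h1 : bP D (fun _ => 1) (-1) = (1 : K) := by rw [h]; rfl
  have h2 : bP D (fun _ => 1) (-1) = D.z := by
    change actFun D (-1) D.z (fun _ => 1) (-1) = D.z
    rw [actFun_self, mul_one]
    unfold mu
    rw [if_pos (show Base (-1) (fun _ => (1 : K)) from fun k _ => rfl)]
  exact D.z1 (h2.symm.trans h1)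

/-! ## triangular permutations -/

/-- triangular permutations with support in `[i, j]` -/
def Tri (i j : ℤ) (π : Equiv.Perm (ℤ → K)) : Prop :=
  (∀ w k, (k < i ∨ j < k) → π w k = w k) ∧
    ∀ k w w', (∀ l < k, w l = w' l) → π w k * (w k)⁻¹ = π w' k * (w' k)⁻¹

theorem Tri.below {i j : ℤ} {π : Equiv.Perm (ℤ → K)} (h : Tri i j π) {k : ℤ} {w w' : ℤ → K}
    (hw : ∀ l < k, w l = w' l) : ∀ l < k, π w l = π w' l := by
  intro l hl
  have h1 := h.2 l w w' (fun m hm => hw m (by omega))
  rw [hw l hl] at h1
  exact mul_right_cancel h1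

theorem tri_one (i j : ℤ) : Tri i j (1 : Equiv.Perm (ℤ → K)) := by
  refine ⟨fun w k _ => rfl, fun k w w' _ => ?_⟩
  simp

theorem Tri.mul {i j : ℤ} {π π' : Equiv.Perm (ℤ → K)} (h : Tri i j π) (h' : Tri i j π') :
    Tri i j (π * π') := by
  refine ⟨fun w k hk => ?_, fun k w w' hw => ?_⟩
  · rw [Equiv.Perm.mul_apply, h.1 _ k hk, h'.1 _ k hk]
  · rw [Equiv.Perm.mul_apply, Equiv.Perm.mul_apply]
    have h1 := h.2 k (π' w) (π' w') (h'.below hw)
    have h2 := h'.2 k w w' hw
    calc π (π' w) k * (w k)⁻¹ = (π (π' w) k * (π' w k)⁻¹) * (π' w k * (w k)⁻¹) := by group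
      _ = (π (π' w') k * (π' w' k)⁻¹) * (π' w' k * (w' k)⁻¹) := by rw [h1, h2]
      _ = π (π' w') k * (w' k)⁻¹ := by group

/-- the group of triangular permutations with support in `[i, j]` -/
def TG (K : Type) [Group K] (i j : ℤ) : Subgroup (Equiv.Perm (ℤ → K)) where
  carrier := {π | Tri i j π ∧ Tri i j π⁻¹}
  one_mem' := by
    refine ⟨tri_one i j, ?_⟩
    rw [inv_one]
    exact tri_one i j
  mul_mem' := by
    rintro a b ⟨ha, ha'⟩ ⟨hb, hb'⟩
    refine ⟨ha.mul hb, ?_⟩
    rw [mul_inv_rev]
    exact hb'.mul ha'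
  inv_mem' := by
    rintro a ⟨ha, ha'⟩
    refine ⟨ha', ?_⟩
    rw [inv_inv]
    exact ha

theorem tri_act (i : ℤ) (x : K) : Tri i i (act D i x) := by
  refine ⟨fun w k hk => ?_, fun k w w' hw => ?_⟩
  · rw [act_apply, actFun_ne D (by omega)]
  · rw [act_apply, act_apply]
    by_cases hk : k = i
    · subst hk
      rw [actFun_self, actFun_self, mu_congr D x hw, mul_inv_cancel_right, mul_inv_cancel_right]
    · rw [actFun_ne D hk, actFun_ne D hk, mul_inv_cancel, mul_inv_cancel]

theorem act_mem (i : ℤ) (x : K) : act D i x ∈ TG K i i := by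
  refine ⟨tri_act D i x, ?_⟩
  rw [← map_inv]
  exact tri_act D i x⁻¹

theorem Tri.mono {i j i' j' : ℤ} (hi : i' ≤ i) (hj : j ≤ j') {π : Equiv.Perm (ℤ → K)}
    (h : Tri i j π) : Tri i' j' π :=
  ⟨fun w k hk => h.1 w k (by omega), h.2⟩

theorem TG_mono {i j i' j' : ℤ} (hi : i' ≤ i) (hj : j ≤ j') : TG K i j ≤ TG K i' j' := by
  rintro π ⟨h, h'⟩
  exact ⟨h.mono hi hj, h'.mono hi hj⟩

theorem Tri.shift {i j : ℤ} {π : Equiv.Perm (ℤ → K)} (h : Tri i j π) :
    Tri (i + 1) (j + 1) (shift K * π * (shift K)⁻¹) := by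
  refine ⟨fun w k hk => ?_, fun k w w' hw => ?_⟩
  · change π (fun l => w (l + 1)) (k - 1) = w k
    rw [h.1 _ _ (by omega)]
    simp
  · change π (fun l => w (l + 1)) (k - 1) * _ = π (fun l => w' (l + 1)) (k - 1) * _
    have := h.2 (k - 1) (fun l => w (l + 1)) (fun l => w' (l + 1)) (fun l hl => hw _ (by omega))
    simpa using this

theorem Tri.unshift {i j : ℤ} {π : Equiv.Perm (ℤ → K)} (h : Tri i j π) :
    Tri (i - 1) (j - 1) ((H654.shift K)⁻¹ * π * (H654.shift K)) := by
  refine ⟨fun w k hk => ?_, fun k w w' hw => ?_⟩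
  · change π (fun l => w (l - 1)) (k + 1) = w k
    rw [h.1 _ _ (by omega)]
    simp
  · change π (fun l => w (l - 1)) (k + 1) * _ = π (fun l => w' (l - 1)) (k + 1) * _
    have := h.2 (k + 1) (fun l => w (l - 1)) (fun l => w' (l - 1)) (fun l hl => hw _ (by omega))
    simpa using this

theorem TG_shift {i j : ℤ} {π : Equiv.Perm (ℤ → K)} (h : π ∈ TG K i j) :
    shift K * π * (shift K)⁻¹ ∈ TG K (i + 1) (j + 1) := by
  refine ⟨h.1.shift, ?_⟩
  have := h.2.shift
  have e : (shift K * π * (shift K)⁻¹)⁻¹ = shift K * π⁻¹ * (shift K)⁻¹ := by group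
  rw [e]
  exact this

theorem TG_unshift {i j : ℤ} {π : Equiv.Perm (ℤ → K)} (h : π ∈ TG K i j) :
    (shift K)⁻¹ * π * (shift K) ∈ TG K (i - 1) (j - 1) := by
  refine ⟨h.1.unshift, ?_⟩
  have := h.2.unshift
  have e : ((shift K)⁻¹ * π * (shift K))⁻¹ = (shift K)⁻¹ * π⁻¹ * (shift K) := by group
  rw [e]
  exact this

theorem TG_trivial {i j : ℤ} (h : j < i) : TG K i j = ⊥ := by
  rw [eq_bot_iff]
  rintro π ⟨h1, _⟩
  rw [Subgroup.mem_bot]
  ext1 w
  funext k
  exact h1.1 w k (by omega)

instance pi_solvable (ι : Type) [Group.IsSolvable K] : Group.IsSolvable (ι → K) := by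
  obtain ⟨n, hn⟩ := Group.IsSolvable.solvable (G := K)
  refine ⟨⟨n, ?_⟩⟩
  rw [eq_bot_iff]
  intro f hf
  rw [Subgroup.mem_bot]
  funext i
  have h1 : (Pi.evalMonoidHom (fun _ : ι => K) i) f ∈ derivedSeries K n :=
    map_derivedSeries_le_derivedSeries _ n (Subgroup.mem_map_of_mem _ hf)
  rw [hn, Subgroup.mem_bot] at h1
  exact h1

/-- the action on the lowest level -/
def low (i j : ℤ) : TG K i j →* ((ℤ → K) → K) where
  toFun π w := π.1 w i * (w i)⁻¹
  map_one' := by
    funext w
    simp
  map_mul' π π' := by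
    funext w
    change π.1 (π'.1 w) i * (w i)⁻¹ = (π.1 w i * (w i)⁻¹) * (π'.1 w i * (w i)⁻¹)
    have h := π.2.1.2 i (π'.1 w) w (fun l hl => π'.2.1.1 w l (Or.inl hl))
    rw [← h]
    group

theorem TG_solvable [Group.IsSolvable K] (n : ℕ) : ∀ i j : ℤ, j < i + n → Group.IsSolvable (TG K i j) := by
  induction n with
  | zero =>
    intro i j h
    rw [TG_trivial (by simpa using h)]
    infer_instance
  | succ n ih =>
    intro i j h
    have := ih (i + 1) j (by push_cast at h; omega)
    refine Group.isSolvable_of_ker_le_range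
      (Subgroup.inclusion (TG_mono (K := K) (i := i + 1) (j := j) (i' := i) (j' := j)
        (by omega) le_rfl)) (low i j) ?_
    intro π hπ
    rw [MonoidHom.mem_ker] at hπ
    have h0 : ∀ w, π.1 w i = w i := by
      intro w
      have := congrFun hπ w
      exact mul_inv_eq_one.1 this
    have h0' : ∀ w, (π.1)⁻¹ w i = w i := by
      intro w
      have h1 := h0 ((π.1)⁻¹ w)
      have e : π.1 ((π.1)⁻¹ w) = w := π.1.apply_symm_apply w
      rw [e] at h1
      exact h1.symm
    refine ⟨⟨π.1, ⟨⟨fun w k hk => ?_, π.2.1.2⟩, ⟨fun w k hk => ?_, π.2.2.2⟩⟩⟩, Subtype.ext rfl⟩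
    · rcases hk with hk | hk
      · rcases eq_or_lt_of_le (show k ≤ i by omega) with h | h
        · rw [h]; exact h0 w
        · exact π.2.1.1 w k (Or.inl h)
      · exact π.2.1.1 w k (Or.inr hk)
    · rcases hk with hk | hk
      · rcases eq_or_lt_of_le (show k ≤ i by omega) with h | h
        · rw [h]; exact h0' w
        · exact π.2.2.1 w k (Or.inl h)
      · exact π.2.2.1 w k (Or.inr hk)

instance [Group.IsSolvable K] (i j : ℤ) : Group.IsSolvable (TG K i j) :=
  TG_solvable (j - i + 1).toNat i j (by omega)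

/-- the union of the groups `TG K i j` -/
def TU (K : Type) [Group K] : Subgroup (Equiv.Perm (ℤ → K)) where
  carrier := {π | ∃ n : ℕ, π ∈ TG K (-n) n}
  one_mem' := ⟨0, Subgroup.one_mem _⟩
  mul_mem' := by
    rintro a b ⟨m, hm⟩ ⟨n, hn⟩
    exact ⟨max m n, Subgroup.mul_mem _ (TG_mono (by omega) (by omega) hm)
      (TG_mono (by omega) (by omega) hn)⟩
  inv_mem' := by
    rintro a ⟨m, hm⟩
    exact ⟨m, Subgroup.inv_mem _ hm⟩

theorem TG_le_TU (i j : ℤ) : TG K i j ≤ TU K := fun _ h =>
  ⟨(max |i| |j|).toNat, TG_mono (by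
    have := neg_abs_le i
    have := le_max_left |i| |j|
    have := abs_nonneg i
    omega) (by
    have := le_abs_self j
    have := le_max_right |i| |j|
    have := abs_nonneg j
    omega) h⟩

theorem TU_shift {π : Equiv.Perm (ℤ → K)} (h : π ∈ TU K) :
    shift K * π * (shift K)⁻¹ ∈ TU K := by
  obtain ⟨n, hn⟩ := h
  exact TG_le_TU _ _ (TG_shift hn)

theorem TU_unshift {π : Equiv.Perm (ℤ → K)} (h : π ∈ TU K) :
    (shift K)⁻¹ * π * (shift K) ∈ TU K := by
  obtain ⟨n, hn⟩ := h
  exact TG_le_TU _ _ (TG_unshift hn)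

theorem TU_zpow (n : ℤ) : ∀ {π : Equiv.Perm (ℤ → K)}, π ∈ TU K →
    shift K ^ n * π * (shift K ^ n)⁻¹ ∈ TU K := by
  induction n with
  | zero => intro π h; simpa using h
  | succ n ih =>
    intro π h
    have e : shift K ^ ((n : ℤ) + 1) * π * (shift K ^ ((n : ℤ) + 1))⁻¹ =
        shift K ^ (n : ℤ) * (shift K * π * (shift K)⁻¹) * (shift K ^ (n : ℤ))⁻¹ := by
      rw [zpow_add_one]; group
    rw [e]
    exact ih (TU_shift h)
  | pred n ih =>
    intro π h
    have e : shift K ^ (-(n : ℤ) - 1) * π * (shift K ^ (-(n : ℤ) - 1))⁻¹ =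
        shift K ^ (-(n : ℤ)) * ((shift K)⁻¹ * π * (shift K)) * (shift K ^ (-(n : ℤ)))⁻¹ := by
      rw [zpow_sub_one]; group
    rw [e]
    exact ih (TU_unshift h)

/-- finitely many elements of the union generate a solvable group -/
theorem closure_solvable [Group.IsSolvable K] (s : Set (Equiv.Perm (ℤ → K))) (hs : s.Finite)
    (h : s ⊆ TU K) : Group.IsSolvable (Subgroup.closure s) := by
  have h1 : ∃ n : ℕ, s ⊆ TG K (-n) n := by
    induction s, hs using Set.Finite.induction_on with
    | empty => exact ⟨0, Set.empty_subset _⟩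
    | @insert a s _ _ ih =>
      obtain ⟨n, hn⟩ := ih (fun x hx => h (Set.mem_insert_of_mem _ hx))
      obtain ⟨m, hm⟩ := h (Set.mem_insert a s)
      refine ⟨max m n, ?_⟩
      intro x hx
      rcases hx with rfl | hx
      · exact TG_mono (by omega) (by omega) hm
      · exact TG_mono (by omega) (by omega) (hn hx)
  obtain ⟨n, hn⟩ := h1
  have h2 : Subgroup.closure s ≤ TG K (-n) n := (Subgroup.closure_le _).2 hn
  exact Group.isSolvable_of_isSolvable_injective (Subgroup.inclusion_injective h2)

/-- General criterion: a group `A` with a homomorphism `φ` to `ℤ` and a homomorphism `θ` to the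
permutations such that all generators are sent to triangular permutations times the right power of
the shift. -/
theorem locSolv [Group.IsSolvable K] {A : Type} [Group A] (φ : A →* Multiplicative ℤ)
    (θ : A →* Equiv.Perm (ℤ → K)) (g : Set A) (hg : Subgroup.closure g = ⊤)
    (h : ∀ x ∈ g, θ x * (shift K ^ (Multiplicative.toAdd (φ x)))⁻¹ ∈ TU K) (s : Set A)
    (hs : s.Finite) (hφ : ∀ x ∈ s, φ x = 1) : Group.IsSolvable (Subgroup.closure (θ '' s)) := by
  have key : ∀ x : A, θ x * (shift K ^ (Multiplicative.toAdd (φ x)))⁻¹ ∈ TU K := by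
    intro x
    have hx : x ∈ Subgroup.closure g := by rw [hg]; exact Subgroup.mem_top x
    induction hx using Subgroup.closure_induction with
    | mem x hx => exact h x hx
    | one => simp
    | mul x y _ _ hx hy =>
      have e : θ (x * y) * (shift K ^ (Multiplicative.toAdd (φ (x * y))))⁻¹ =
          (θ x * (shift K ^ (Multiplicative.toAdd (φ x)))⁻¹) *
            (shift K ^ (Multiplicative.toAdd (φ x)) *
              (θ y * (shift K ^ (Multiplicative.toAdd (φ y)))⁻¹) *
                (shift K ^ (Multiplicative.toAdd (φ x)))⁻¹) := by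
        rw [map_mul, map_mul, toAdd_mul, zpow_add]
        group
      rw [e]
      exact Subgroup.mul_mem _ hx (TU_zpow _ hy)
    | inv x _ hx =>
      have e : θ x⁻¹ * (shift K ^ (Multiplicative.toAdd (φ x⁻¹)))⁻¹ =
          shift K ^ (-(Multiplicative.toAdd (φ x))) *
            (θ x * (shift K ^ (Multiplicative.toAdd (φ x)))⁻¹)⁻¹ *
              (shift K ^ (-(Multiplicative.toAdd (φ x))))⁻¹ := by
        rw [map_inv, map_inv, toAdd_inv, zpow_neg]
        group
      rw [e]
      exact TU_zpow _ (Subgroup.inv_mem _ hx)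
  refine closure_solvable _ (hs.image θ) ?_
  rintro _ ⟨x, hx, rfl⟩
  have := key x
  rw [hφ x hx] at this
  simpa using this

end Vale.Agent.P246.Dis.H654
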