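import Vale.Agent.P246.Dis.H654.Act
import Mathlib.LinearAlgebra.Matrix.SpecialLinearGroup
import Mathlib.Data.ZMod.Basic
import Mathlib.GroupTheory.Finiteness
import Mathlib.Tactic.FinCases

/-! # P246, disproof of D(2), block B3: the locally solvable quotient

`K = SL(2, 3)` with `β` the conjugation by `diag (1, -1)` and `z = -1 = a ^ 3`.  The main theorem
`exists_locSolv`: for every group `A` with generators `a, b, t` which has the universal property of
`⟨a, b, t | ababab = baa, b ^ 2 = 1, t b t⁻¹ = a ^ 3⟩` there is a homomorphism `θ` to a group `B`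
with `θ b ≠ 1` such that finitely many elements of the kernel of `A → ℤ` (`a, b ↦ 0`, `t ↦ 1`) are
always sent to elements which generate a solvable group. -/

namespace Vale.Agent.P246.Dis.H654

open Matrix

/-- the group `SL(2, 3)` -/
abbrev K3 : Type := SpecialLinearGroup (Fin 2) (ZMod 3)

/-- the homomorphism to `ℤ/3` -/
def chiFun (x : K3) : ZMod 3 := (1 - x 1 0 ^ 2) * (x 0 1 * x 1 1) + x 1 0 * (x 0 0 + x 1 1)

set_option maxRecDepth 100000 in
theorem chiFun_mul : ∀ x y : K3, chiFun (x * y) = chiFun x + chiFun y := by decide +kernel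

/-- the homomorphism to `ℤ/3` -/
def chi : K3 →* Multiplicative (ZMod 3) where
  toFun x := Multiplicative.ofAdd (chiFun x)
  map_one' := by decide +kernel
  map_mul' x y := by rw [chiFun_mul]; rfl

theorem chi_ker (x : K3) : x ∈ chi.ker ↔ chiFun x = 0 := Iff.rfl

/-- the element `-1` -/
def z3 : K3 := ⟨!![2, 0; 0, 2], by decide⟩

theorem z3_comm : ∀ x : K3, z3 * x = x * z3 := by decide +kernel

theorem z3_sq : z3 * z3 = 1 := by decide +kernel

theorem z3_ne : z3 ≠ 1 := by decide +kernel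

set_option maxRecDepth 100000 in
theorem comm_ker : ∀ x y : K3, chiFun x = 0 → chiFun y = 0 →
    x * y = y * x ∨ x * y = z3 * (y * x) := by decide +kernel

/-- the centre -/
def Z3 : Subgroup K3 where
  carrier := {x | x = 1 ∨ x = z3}
  one_mem' := Or.inl rfl
  mul_mem' := by
    rintro a b (rfl | rfl) (rfl | rfl)
    · exact Or.inl (one_mul 1)
    · exact Or.inr (one_mul z3)
    · exact Or.inr (mul_one z3)
    · exact Or.inl z3_sq
  inv_mem' := by
    rintro a (rfl | rfl)
    · exact Or.inl inv_one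
    · exact Or.inr (inv_eq_of_mul_eq_one_right z3_sq)

instance solvable_K3 : Group.IsSolvable K3 := by
  refine ⟨⟨3, ?_⟩⟩
  have h1 : derivedSeries K3 1 ≤ chi.ker := by
    rw [derivedSeries_succ, derivedSeries_zero, Subgroup.commutator_le]
    intro x _ y _
    rw [MonoidHom.mem_ker, map_commutatorElement]
    exact commutatorElement_eq_one_iff_mul_comm.2 (mul_comm _ _)
  have h2 : derivedSeries K3 2 ≤ Z3 := by
    rw [derivedSeries_succ, Subgroup.commutator_le]
    intro x hx y hy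
    rcases comm_ker x y (h1 hx) (h1 hy) with h | h
    · left
      exact commutatorElement_eq_one_iff_mul_comm.2 h
    · right
      rw [commutatorElement_def, h]
      group
  rw [derivedSeries_succ, eq_bot_iff, Subgroup.commutator_le]
  intro x hx y hy
  rw [Subgroup.mem_bot, commutatorElement_eq_one_iff_mul_comm]
  rcases h2 hx with h | h
  · rw [h, one_mul, mul_one]
  · rw [h, z3_comm]

/-- the values of the automorphism `β` -/
def betaFun (x : K3) : K3 :=
  ⟨!![x 0 0, - x 0 1; - x 1 0, x 1 1], by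
    have := x.2
    rw [Matrix.det_fin_two] at this
    rw [Matrix.det_fin_two_of, neg_mul_neg]
    exact this⟩

set_option maxRecDepth 100000 in
theorem betaFun_mul : ∀ x y : K3, betaFun (x * y) = betaFun x * betaFun y := by decide +kernel

theorem betaFun_betaFun : ∀ x : K3, betaFun (betaFun x) = x := by decide +kernel

/-- the automorphism `β`, conjugation by `diag (1, -1)` -/
def beta3 : K3 ≃* K3 where
  toFun := betaFun
  invFun := betaFun
  left_inv := betaFun_betaFun
  right_inv := betaFun_betaFun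
  map_mul' := betaFun_mul

/-- the data -/
def D3 : Dat K3 where
  β := beta3
  z := z3
  ββ := betaFun_betaFun
  βz := by
    change betaFun z3 = z3
    decide +kernel
  zz := z3_sq
  z1 := z3_ne

/-- the element `a` -/
def a3 : K3 := ⟨!![0, 1; 2, 1], by decide⟩

theorem a3_rel : a3 * betaFun a3 * a3 = betaFun a3 * betaFun a3 := by decide +kernel

theorem a3_cube : a3 ^ 3 = z3 := by decide +kernel

/-- the permutation given by `a` -/
noncomputable def aP : Equiv.Perm (ℤ → K3) := act D3 0 a3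

theorem aP_cube : aP ^ 3 = act D3 0 z3 := by
  rw [aP, ← map_pow, a3_cube]

theorem bP_inv : (bP D3)⁻¹ = bP D3 := inv_eq_of_mul_eq_one_right (bP_sq D3)

theorem rel_r : aP * bP D3 * aP * bP D3 * aP * bP D3 * aP⁻¹ * aP⁻¹ * (bP D3)⁻¹ = 1 := by
  have h1 : bP D3 * aP * bP D3 = act D3 0 (betaFun a3) := bP_conj D3 a3
  have h2 : aP * (bP D3 * aP * bP D3) * aP =
      (bP D3 * aP * bP D3) * (bP D3 * aP * bP D3) := by
    rw [h1, aP, ← map_mul, ← map_mul, ← map_mul, a3_rel]
  have h3 : (bP D3 * aP * bP D3) * (bP D3 * aP * bP D3) = bP D3 * aP * aP * bP D3 := by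
    calc (bP D3 * aP * bP D3) * (bP D3 * aP * bP D3)
        = bP D3 * aP * (bP D3 * bP D3) * aP * bP D3 := by group
      _ = bP D3 * aP * aP * bP D3 := by rw [bP_sq]; group
  rw [h3] at h2
  calc aP * bP D3 * aP * bP D3 * aP * bP D3 * aP⁻¹ * aP⁻¹ * (bP D3)⁻¹
      = (aP * (bP D3 * aP * bP D3) * aP) * bP D3 * aP⁻¹ * aP⁻¹ * (bP D3)⁻¹ := by group
    _ = bP D3 * aP * aP * (bP D3 * bP D3) * aP⁻¹ * aP⁻¹ * (bP D3)⁻¹ := by rw [h2]; group
    _ = 1 := by rw [bP_sq]; group

theorem rel_s : shift K3 * bP D3 * (shift K3)⁻¹ = aP ^ 3 := by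
  rw [shift_bP, aP_cube]; rfl

/-- BLOCK B3. -/
theorem exists_locSolv {A : Type} [Group A] (a b t : A)
    (hgen : Subgroup.closure ({a, b, t} : Set A) = ⊤) (φ : A →* Multiplicative ℤ)
    (ha : φ a = 1) (hb : φ b = 1) (ht : φ t = Multiplicative.ofAdd 1)
    (lift : ∀ (B : Type) [Group B] (a' b' t' : B),
      a' * b' * a' * b' * a' * b' * a'⁻¹ * a'⁻¹ * b'⁻¹ = 1 → t' * b' * t'⁻¹ = a' ^ 3 →
        b' ^ 2 = 1 → ∃ θ : A →* B, θ a = a' ∧ θ b = b' ∧ θ t = t') :
    ∃ (B : Type) (_ : Group B) (θ : A →* B), θ b ≠ 1 ∧ ∀ s : Set A, s.Finite →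
      (∀ x ∈ s, φ x = 1) → Group.IsSolvable (Subgroup.closure (θ '' s)) := by
  obtain ⟨θ, h1, h2, h3⟩ := lift (Equiv.Perm (ℤ → K3)) aP (bP D3) (shift K3) rel_r rel_s
    (by rw [pow_two]; exact bP_sq D3)
  refine ⟨Equiv.Perm (ℤ → K3), inferInstance, θ, ?_, ?_⟩
  · rw [h2]; exact bP_ne_one D3
  · intro s hs hφ
    refine locSolv φ θ {a, b, t} hgen ?_ s hs hφ
    intro x hx
    rcases hx with rfl | rfl | hx
    · rw [ha, h1, toAdd_one, zpow_zero, inv_one, mul_one]
      exact TG_le_TU 0 0 (act_mem D3 0 a3)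
    · rw [hb, h2, toAdd_one, zpow_zero, inv_one, mul_one]
      exact TG_le_TU (-1) (-1) (act_mem D3 (-1) z3)
    · rw [Set.mem_singleton_iff] at hx
      rw [hx, ht, h3, toAdd_ofAdd, zpow_one, mul_inv_cancel]
      exact Subgroup.one_mem _

/-- The form for finitely generated groups over the kernel of `φ`. -/
theorem fg_solvable_quot {A : Type} [Group A] (a b t : A)
    (hgen : Subgroup.closure ({a, b, t} : Set A) = ⊤) (φ : A →* Multiplicative ℤ)
    (ha : φ a = 1) (hb : φ b = 1) (ht : φ t = Multiplicative.ofAdd 1)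
    (lift : ∀ (B : Type) [Group B] (a' b' t' : B),
      a' * b' * a' * b' * a' * b' * a'⁻¹ * a'⁻¹ * b'⁻¹ = 1 → t' * b' * t'⁻¹ = a' ^ 3 →
        b' ^ 2 = 1 → ∃ θ : A →* B, θ a = a' ∧ θ b = b' ∧ θ t = t')
    {G : Type} [Group G] [Group.FG G] (ψ : G →* A) (h : ∀ x, φ (ψ x) = 1) :
    ∃ (S : Type) (_ : Group S) (_ : Group.IsSolvable S) (s : G →* S), ∀ g, ψ g = b → s g ≠ 1 := by
  obtain ⟨B, _, θ, hθ, hs⟩ := exists_locSolv a b t hgen φ ha hb ht lift
  obtain ⟨F, hF⟩ := Group.FG.out (G := G)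
  have hsolv := hs (ψ '' (F : Set G)) (F.finite_toSet.image ψ) (by
    rintro _ ⟨x, _, rfl⟩
    exact h x)
  have hrange : (θ.comp ψ).range = Subgroup.closure (θ '' (ψ '' (F : Set G))) := by
    rw [MonoidHom.range_eq_map, ← hF, MonoidHom.map_closure, Set.image_image]
    rfl
  rw [← hrange] at hsolv
  refine ⟨(θ.comp ψ).range, inferInstance, hsolv, (θ.comp ψ).rangeRestrict, ?_⟩
  intro g hg h1
  apply hθ
  rw [← hg]
  exact congrArg Subtype.val h1

end Vale.Agent.P246.Dis.H654
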